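import Vale.Agent.P365.T2.H878.Ups
import Vale.Agent.P365.T2.Gen963
import Vale.Agent.P365.T2.H963.ContUps

set_option linter.all false

/-!
# P365 T2 / H618 / LEC: the law error of the one-body entropy, part (M) (698, note 20434).

`HV` of the summand of `Ups` splits into an `N`-part with multiplier `Gf1 = G'` and an `M`-part with
multiplier `- ρ_k u² / (u + ε)`.  The `M`-part of the law error is integrated back by parts and is
bounded pointwise by `4 T_xy (P_y w_k(x,.) + ρ_k u_x)`: no truncation `T`, no logarithm.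
-/

namespace P365T2.H618

open MeasureTheory Set Filter P365L P365O P365T1 Vale.Agent.P365.J376 Complex P365H878
open P365L.T2.Path
open scoped Topology ComplexConjugate
open P365T2.H844 (tt pr Pw ur Gf Gf1 Gf2)
open P365T2.H37 (wk rho)

variable {ι : Type*} [Fintype ι] [DecidableEq ι] {A : Matrix ι ι ℝ}

/-- `u G' - G = u² / (u + ε)` -/
noncomputable def muF (ε u : ℝ) : ℝ := u ^ 2 / (u + ε)

/-- its derivative -/
noncomputable def muF1 (ε u : ℝ) : ℝ := (u ^ 2 + 2 * u * ε) / (u + ε) ^ 2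

theorem hasDerivAt_muF {ε u : ℝ} (h : 0 < u + ε) : HasDerivAt (muF ε) (muF1 ε u) u := by
  have h1 : HasDerivAt (fun u : ℝ => u + ε) 1 u := (hasDerivAt_id u).add_const ε
  have h2 : HasDerivAt (fun u : ℝ => u ^ 2) (2 * u) u := by
    simpa using hasDerivAt_pow 2 u
  have h3 := h2.div h1 h.ne'
  refine h3.congr_deriv ?_
  unfold muF1
  congr 1
  ring

theorem muF_nonneg {ε u : ℝ} (hε : 0 < ε) (hu : 0 ≤ u) : 0 ≤ muF ε u := by
  unfold muF
  positivity

theorem muF_le {ε u : ℝ} (hε : 0 < ε) (hu : 0 ≤ u) : muF ε u ≤ u := by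
  unfold muF
  rw [div_le_iff₀ (by positivity)]
  nlinarith

theorem muF1_nonneg {ε u : ℝ} (hε : 0 < ε) (hu : 0 ≤ u) : 0 ≤ muF1 ε u := by
  unfold muF1
  positivity

theorem muF1_le {ε u : ℝ} (hε : 0 < ε) (hu : 0 ≤ u) : muF1 ε u ≤ 1 := by
  unfold muF1
  rw [div_le_one (by positivity)]
  nlinarith [sq_nonneg ε]

theorem Gf_sub {ε u : ℝ} (h : 0 < u + ε) : Gf ε u - u * Gf1 ε u = -muF ε u := by
  unfold Gf Gf1 muF
  field_simp
  ring

theorem contDiffOn_muF {n : WithTop ℕ∞} {ε : ℝ} : ContDiffOn ℝ n (muF ε) {u | 0 < u + ε} := by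
  unfold muF
  refine (contDiffOn_id.pow 2).div (contDiffOn_id.add contDiffOn_const) ?_
  intro u hu
  exact ne_of_gt hu

/-! ### the generic one-body functional `M ψ(N/M)` -/

/-- the gradient of `M` by Cauchy-Schwarz: `(e_y / (2 m_y)) (∂_v M_x)² ≤ 2 T_xy M_x` -/
theorem grad_M (hA : A.IsSymm) (x y : ι) {W : ι → ℂ} (hW : W ∈ Om ι) :
    -(W y).im / (2 * mm A W y) * DV (MM A x) y W ^ 2 ≤ 2 * TT A x y W * MM A x W := by
  have hmy := P365L.mm_pos hA hW y
  have hmx := P365L.mm_pos hA hW x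
  have ex := hW x
  have ey := hW y
  have h2 : DV (MM A x) y W = DV (NN A (fun _ => 1) x) y W := DD_congr (MM_fun hA x) _ hW
  rw [h2, DV_NN hA _ x y hW]
  obtain ⟨S, hS⟩ : ∃ S : ℝ, S = ∑ z, (-(W z).im) * (‖Gr A W x z‖ * ‖Gr A W y z‖) := ⟨_, rfl⟩
  have h3 : |-(2 * ∑ z, (W x).im * (W z).im * 1 *
      (conj (Gr A W x z) * (Gr A W x y * Gr A W y z)).re)| ≤
      2 * (-(W x).im) * ‖Gr A W x y‖ * S := by
    rw [abs_neg, hS, Finset.mul_sum, Finset.mul_sum]
    refine (Finset.abs_sum_le_sum_abs _ _).trans (Finset.sum_le_sum fun z _ => ?_)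
    have ez := hW z
    have h3 : |(conj (Gr A W x z) * (Gr A W x y * Gr A W y z)).re| ≤
        ‖Gr A W x z‖ * (‖Gr A W x y‖ * ‖Gr A W y z‖) := by
      refine (Complex.abs_re_le_norm _).trans (le_of_eq ?_)
      rw [norm_mul, norm_mul, Complex.norm_conj]
    have h5 : 0 ≤ (W x).im * (W z).im := by nlinarith
    rw [abs_mul, abs_mul, abs_mul, abs_of_nonneg h5, abs_one, mul_one,
      abs_of_nonneg (by norm_num : (0 : ℝ) ≤ 2)]
    calc 2 * ((W x).im * (W z).im * |(conj (Gr A W x z) * (Gr A W x y * Gr A W y z)).re|)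
        ≤ 2 * ((W x).im * (W z).im * (‖Gr A W x z‖ * (‖Gr A W x y‖ * ‖Gr A W y z‖))) := by
          gcongr
      _ = _ := by ring
  have hCS : S ^ 2 ≤ mm A W x * mm A W y := by
    rw [hS, mm_eq hA hW, mm_eq hA hW]
    exact cs_sum Finset.univ _ _ _ (fun z _ => by linarith [hW z]) (fun z _ => norm_nonneg _)
      (fun z _ => norm_nonneg _)
  have hsq := pow_le_pow_left₀ (abs_nonneg _) h3 2
  rw [sq_abs] at hsq
  have hk : 0 ≤ -(W y).im / (2 * mm A W y) := div_nonneg (by linarith) (by positivity)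
  have h6 : (2 * (-(W x).im) * ‖Gr A W x y‖ * S) ^ 2 ≤
      (2 * (-(W x).im) * ‖Gr A W x y‖) ^ 2 * (mm A W x * mm A W y) := by
    rw [mul_pow]
    exact mul_le_mul_of_nonneg_left hCS (sq_nonneg _)
  refine (mul_le_mul_of_nonneg_left (hsq.trans h6) hk).trans (le_of_eq ?_)
  unfold TT MM KK
  field_simp

theorem DE_MM (hA : A.IsSymm) (x y : ι) {W : ι → ℂ} (hW : W ∈ Om ι) :
    DE (MM A x) y W = -((W x).im * (Gr A W x y * Gr A W y x).re) +
      (if x = y then mm A W x else 0) := by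
  have e : MM A x = fun W : ι → ℂ => (W x).im * (I * Gr A W x x).re := by
    funext W
    unfold MM mm
    simp
  have h1 : DE (fun W : ι → ℂ => (W x).im * (I * Gr A W x x).re) y W =
      (W x).im * DE (fun W : ι → ℂ => (I * Gr A W x x).re) y W +
        (I * Gr A W x x).re * DE (fun W : ι → ℂ => (W x).im) y W :=
    DD_mul ((contDiff_imc (n := 1) x).differentiable one_ne_zero W)
      (diffAt (contDiffOn_reGr (n := 1) hA x x I) one_ne_zero hW)
  rw [e, h1, DE_Gr hA hW, DE_im, I_mul_I]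
  by_cases hxy : x = y
  · rw [if_pos hxy, if_pos hxy]
    unfold mm
    simp
    ring
  · rw [if_neg hxy, if_neg hxy]
    simp
    ring

/-- `∂_v` of the flux of `M_x`, also for `x = y` -/
theorem DV_HV_MM (hA : A.IsSymm) (x y : ι) {W : ι → ℂ} (hW : W ∈ Om ι) :
    |DV (HV A (MM A x) y) y W| ≤ TT A x y W := by
  have h1 := LL_MM hA x y hW
  unfold LL at h1
  rw [DE_MM hA x y hW] at h1
  have ex := hW x
  have ey := hW y
  have h2 : DV (HV A (MM A x) y) y W =
      (W x).im * (W y).im * (Gr A W x y * Gr A W y x).re := by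
    by_cases hxy : x = y
    · subst hxy
      rw [if_pos rfl, if_pos rfl] at h1
      unfold MM at h1 ⊢
      linarith
    · rw [if_neg hxy, if_neg hxy] at h1
      linarith
  have h3 : |(Gr A W x y * Gr A W y x).re| ≤ KK A W x y := by
    refine (Complex.abs_re_le_norm _).trans (le_of_eq ?_)
    rw [norm_mul, Gr_symm hA y x]
    unfold KK
    ring
  rw [h2, abs_mul, abs_of_nonneg (by nlinarith : 0 ≤ (W x).im * (W y).im)]
  unfold TT
  exact mul_le_mul_of_nonneg_left h3 (by nlinarith)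

/-- **pointwise content of the `M`-part** -/
theorem ptC (hA : A.IsSymm) {w : ι → ℝ} (hw : ∀ z, 0 ≤ w z) (x y : ι) {ε : ℝ}
    (hε : 0 < ε) {W : ι → ℂ} (hW : W ∈ Om ι) :
    |DV (fun W => muF ε (NN A w x W / MM A x W) * HV A (MM A x) y W) y W| ≤
      TT A x y W * (3 * (NN A w y W / MM A y W) + 4 * (NN A w x W / MM A x W)) := by
  have hMx := MM_pos hA hW x
  have hMy := MM_pos hA hW y
  have hmy := P365L.mm_pos hA hW y
  have hNx := NN_nonneg (A := A) hw hW x
  have hNy := NN_nonneg (A := A) hw hW y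
  have hT0 := TT_nonneg (A := A) hW x y
  have ey := hW y
  have hdu : DifferentiableAt ℝ (fun W => NN A w x W / MM A x W) W :=
    diffAt ((contDiffOn_NN (n := 1) hA w x).div (contDiffOn_MM hA x)
      fun W hW => (MM_pos hA hW x).ne') one_ne_zero hW
  have hu0 : 0 ≤ NN A w x W / MM A x W := by positivity
  have hP0 : 0 ≤ NN A w y W / MM A y W := by positivity
  have hue : 0 < NN A w x W / MM A x W + ε := by positivity
  have hdmu : DifferentiableAt ℝ (fun W => muF ε (NN A w x W / MM A x W)) W :=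
    (HasDerivAt.comp_hasFDerivAt (h₂ := muF ε) W (hasDerivAt_muF hue)
      hdu.hasFDerivAt).differentiableAt
  have hdH : DifferentiableAt ℝ (HV A (MM A x) y) W :=
    diffAt (contDiffOn_HV hA (contDiffOn_MM hA x) y) one_ne_zero hW
  have e1 : DV (fun W => muF ε (NN A w x W / MM A x W) * HV A (MM A x) y W) y W =
      muF ε (NN A w x W / MM A x W) * DV (HV A (MM A x) y) y W +
        HV A (MM A x) y W * DV (fun W => muF ε (NN A w x W / MM A x W)) y W := DD_mul hdmu hdH
  have e2 : DV (fun W => muF ε (NN A w x W / MM A x W)) y W =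
      muF1 ε (NN A w x W / MM A x W) * DV (fun W => NN A w x W / MM A x W) y W :=
    DD_comp hdu (hasDerivAt_muF hue)
  have h1 := DV_HV_MM hA x y hW
  have h2 := grad_u hA hw x y hW
  have h3 := grad_M hA x y hW
  rw [e1, e2]
  unfold HV at h1 ⊢
  obtain ⟨u, hu⟩ : ∃ u : ℝ, u = NN A w x W / MM A x W := ⟨_, rfl⟩
  obtain ⟨P, hP⟩ : ∃ P : ℝ, P = NN A w y W / MM A y W := ⟨_, rfl⟩
  obtain ⟨d, hd⟩ : ∃ d : ℝ, d = DV (fun W => NN A w x W / MM A x W) y W := ⟨_, rfl⟩
  obtain ⟨D, hD⟩ : ∃ D : ℝ, D = DV (MM A x) y W := ⟨_, rfl⟩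
  obtain ⟨κ, hκ⟩ : ∃ κ : ℝ, κ = -(W y).im / (2 * mm A W y) := ⟨_, rfl⟩
  obtain ⟨Q, hQ⟩ : ∃ Q : ℝ, Q = DV (HV A (MM A x) y) y W := ⟨_, rfl⟩
  have hQ' : DV (fun W => -(W y).im / (2 * mm A W y) * DV (MM A x) y W) y W = Q := hQ.symm
  rw [hQ'] at h1 ⊢
  rw [← hu] at h2 hu0 ⊢
  rw [← hP] at h2 hP0 ⊢
  rw [← hκ] at h2 h3 ⊢
  rw [← hD] at h3 ⊢
  have hd' : DV (fun W => NN A w x W / MM A x W) y W = d := hd.symm
  rw [hd'] at h2 ⊢
  obtain ⟨T, hT⟩ : ∃ T : ℝ, T = TT A x y W := ⟨_, rfl⟩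
  obtain ⟨M, hM⟩ : ∃ M : ℝ, M = MM A x W := ⟨_, rfl⟩
  rw [← hT] at h1 h2 h3 hT0 ⊢
  rw [← hM] at h2 h3 hMx
  have hκ0 : 0 ≤ κ := by rw [hκ]; exact div_nonneg (by linarith) (by positivity)
  have hmu0 := muF_nonneg hε hu0
  have hmu1 := muF_le hε hu0
  have hm10 := muF1_nonneg hε hu0
  have hm11 := muF1_le hε hu0
  -- the cross term
  have h4 : (κ * (d * D)) ^ 2 ≤ (3 * T * (P + u)) ^ 2 := by
    have h5 : (κ * (d * D)) ^ 2 * M = (κ * (M * d ^ 2)) * (κ * D ^ 2) := by ring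
    have h6 : (κ * (M * d ^ 2)) * (κ * D ^ 2) ≤ (4 * u * T * (P + u)) * (2 * T * M) :=
      mul_le_mul h2 h3 (by positivity) (by positivity)
    have h7 : (4 * u * T * (P + u)) * (2 * T * M) ≤ (3 * T * (P + u)) ^ 2 * M := by
      have h8 : 8 * u * (P + u) ≤ 9 * (P + u) ^ 2 := by nlinarith [mul_nonneg hu0 hP0]
      have h9 : 0 ≤ T ^ 2 * M := by positivity
      nlinarith [mul_le_mul_of_nonneg_right h8 h9]
    have h8 : (κ * (d * D)) ^ 2 * M ≤ (3 * T * (P + u)) ^ 2 * M := by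
      rw [h5]; exact h6.trans h7
    exact le_of_mul_le_mul_right h8 hMx
  have h5 : |κ * (d * D)| ≤ 3 * T * (P + u) := abs_le_of_sq_le_sq h4 (by positivity)
  calc |muF ε u * Q + κ * D * (muF1 ε u * d)|
      ≤ |muF ε u * Q| + |κ * D * (muF1 ε u * d)| := abs_add_le _ _
    _ = muF ε u * |Q| + muF1 ε u * |κ * (d * D)| := by
        rw [abs_mul, abs_of_nonneg hmu0]
        congr 1
        rw [show κ * D * (muF1 ε u * d) = muF1 ε u * (κ * (d * D)) by ring, abs_mul,
          abs_of_nonneg hm10]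
    _ ≤ u * T + 1 * (3 * T * (P + u)) :=
        add_le_add (mul_le_mul hmu1 h1 (abs_nonneg _) hu0)
          (mul_le_mul hm11 h5 (abs_nonneg _) zero_le_one)
    _ = T * (3 * P + 4 * u) := by ring

/-- **the flux of `M ψ(N/M)`** -/
theorem HV_body (hA : A.IsSymm) (w : ι → ℝ) (hw : ∀ z, 0 ≤ w z) (x y : ι) {ε : ℝ}
    (hε : 0 < ε) {W : ι → ℂ} (hW : W ∈ Om ι) :
    HV A (fun W => MM A x W * Gf ε (NN A w x W / MM A x W)) y W =
      Gf1 ε (NN A w x W / MM A x W) * HV A (NN A w x) y W -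
        muF ε (NN A w x W / MM A x W) * HV A (MM A x) y W := by
  have hMx := MM_pos hA hW x
  have hNx := NN_nonneg (A := A) hw hW x
  have hdM := diffAt (contDiffOn_MM (n := 1) hA x) one_ne_zero hW
  have hdu : DifferentiableAt ℝ (fun W => NN A w x W / MM A x W) W :=
    diffAt ((contDiffOn_NN (n := 1) hA w x).div (contDiffOn_MM hA x)
      fun W hW => (MM_pos hA hW x).ne') one_ne_zero hW
  have hu0 : 0 ≤ NN A w x W / MM A x W := by positivity
  have hue : 0 < NN A w x W / MM A x W + ε := by positivity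
  have hdG : DifferentiableAt ℝ (fun W => Gf ε (NN A w x W / MM A x W)) W :=
    (HasDerivAt.comp_hasFDerivAt (h₂ := Gf ε) W (hasDerivAt_Gf hue)
      hdu.hasFDerivAt).differentiableAt
  have e1 : DV (fun W => MM A x W * Gf ε (NN A w x W / MM A x W)) y W =
      MM A x W * DV (fun W => Gf ε (NN A w x W / MM A x W)) y W +
        Gf ε (NN A w x W / MM A x W) * DV (MM A x) y W := DD_mul hdM hdG
  have e2 : DV (fun W => Gf ε (NN A w x W / MM A x W)) y W =
      Gf1 ε (NN A w x W / MM A x W) * DV (fun W => NN A w x W / MM A x W) y W :=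
    DD_comp hdu (hasDerivAt_Gf hue)
  have e3 : DV (NN A w x) y W = (NN A w x W / MM A x W) * DV (MM A x) y W +
      MM A x W * DV (fun W => NN A w x W / MM A x W) y W := by
    have e4 : DV (NN A w x) y W = DV (fun W => (NN A w x W / MM A x W) * MM A x W) y W :=
      DD_congr (fun W hW => (div_mul_cancel₀ _ (MM_pos hA hW x).ne').symm) _ hW
    rw [e4]
    exact DD_mul hdu hdM
  have e5 := Gf_sub hue
  unfold HV
  rw [e1, e2, e3]
  linear_combination (-(W y).im / (2 * mm A W y) * DV (MM A x) y W) * e5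

theorem NN_smul (c : ℝ) (w : ι → ℝ) (x : ι) (W : ι → ℂ) :
    NN A (fun z => c * w z) x W = c * NN A w x W := by
  unfold NN
  rw [Finset.mul_sum]
  exact Finset.sum_congr rfl fun z _ => by ring

theorem HV_congr {F G : (ι → ℂ) → ℝ} (h : ∀ W ∈ Om ι, F W = G W) (y : ι) {W : ι → ℂ}
    (hW : W ∈ Om ι) : HV A F y W = HV A G y W := by
  have h1 : DV F y W = DV G y W := DD_congr h _ hW
  unfold HV
  rw [h1]

theorem HV_const_mul {F : (ι → ℂ) → ℝ} (c : ℝ) (y : ι) {W : ι → ℂ}
    (hF : DifferentiableAt ℝ F W) : HV A (fun W => c * F W) y W = c * HV A F y W := by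
  have h1 : DV (fun W => c * F W) y W = c * DV F y W := DD_const_mul c hF
  unfold HV
  rw [h1]
  ring

/-! ### 844's names -/

section names

variable {X : Type*} [NormedAddCommGroup X] [InnerProductSpace ℝ X] {Φ : ι → X}

/-- the multiplier of the `M`-part, times the flux of `M` -/
noncomputable def Mpart (Φ : ι → X) (A : Matrix ι ι ℝ) (ε : ℝ) (J k : ℕ) (x y : ι) (W : ι → ℂ) : ℝ :=
  rho k * muF ε (ur Φ (P365T2.H844.TT A W) J k x) * HV A (MM A x) y W

/-- **(C3)** the flux of the summand of the entropy -/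
theorem HV_ups (hA : A.IsSymm) {ε : ℝ} (hε : 0 < ε) (J k : ℕ) (x y : ι) {W : ι → ℂ}
    (hW : W ∈ Om ι) :
    HV A (fun W => rho k * pr (P365T2.H844.TT A W) x *
      Gf ε (ur Φ (P365T2.H844.TT A W) J k x)) y W =
      Gf1 ε (ur Φ (P365T2.H844.TT A W) J k x) *
        HV A (NN A (fun z => wk J k (tt Φ x z)) x) y W - Mpart Φ A ε J k x y W := by
  have hrho := P365T2.H37.rho_pos k
  obtain ⟨w, hw⟩ : ∃ w : ι → ℝ, w = fun z => wk J k (tt Φ x z) / rho k := ⟨_, rfl⟩
  have hw0 : ∀ z, 0 ≤ w z := fun z => by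
    rw [hw]
    exact div_nonneg (P365T2.H37.wk_nonneg (P365T2.H844.tt_nonneg x z)) hrho.le
  have hJ : ∀ W ∈ Om ι, NN A w x W / MM A x W ∈ {u : ℝ | 0 < u + ε} := by
    intro W hW
    have h1 := NN_nonneg (A := A) hw0 hW x
    have h2 := MM_pos hA hW x
    show 0 < NN A w x W / MM A x W + ε
    positivity
  have e0 : ∀ W ∈ Om ι, rho k * pr (P365T2.H844.TT A W) x *
      Gf ε (ur Φ (P365T2.H844.TT A W) J k x) =
      rho k * (MM A x W * Gf ε (NN A w x W / MM A x W)) := by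
    intro W hW
    rw [pr_eq hA x hW, ur_eq hA J k x hW, hw]
    ring
  have hd : DifferentiableAt ℝ (fun W => MM A x W * Gf ε (NN A w x W / MM A x W)) W :=
    diffAt (n := 1) ((contDiffOn_MM hA x).mul (contDiffOn_Gf.comp
      ((contDiffOn_NN hA w x).div (contDiffOn_MM hA x)
        fun W hW => (MM_pos hA hW x).ne') hJ)) one_ne_zero hW
  have hNd : DifferentiableAt ℝ (NN A w x) W :=
    diffAt (contDiffOn_NN (n := 1) hA w x) one_ne_zero hW
  have hwk : (fun z => wk J k (tt Φ x z)) = fun z => rho k * w z := by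
    funext z
    rw [hw]
    field_simp
  have hNN : NN A (fun z => wk J k (tt Φ x z)) x = fun W => rho k * NN A w x W := by
    funext W
    rw [hwk, NN_smul]
  have hux : ur Φ (P365T2.H844.TT A W) J k x = NN A w x W / MM A x W := by
    rw [ur_eq hA J k x hW, hw]
  rw [HV_congr e0 y hW, HV_const_mul (rho k) y hd, HV_body hA w hw0 x y hε hW, hNN,
    HV_const_mul (rho k) y hNd, Mpart, hux]
  ring

theorem contDiffOn_Mpart (hA : A.IsSymm) {ε : ℝ} (hε : 0 < ε) (J k : ℕ) (x y : ι) :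
    ContDiffOn ℝ 1 (Mpart Φ A ε J k x y) (Om ι) := by
  have hrho := P365T2.H37.rho_pos k
  obtain ⟨w, hw⟩ : ∃ w : ι → ℝ, w = fun z => wk J k (tt Φ x z) / rho k := ⟨_, rfl⟩
  have hw0 : ∀ z, 0 ≤ w z := fun z => by
    rw [hw]
    exact div_nonneg (P365T2.H37.wk_nonneg (P365T2.H844.tt_nonneg x z)) hrho.le
  have hJ : ∀ W ∈ Om ι, NN A w x W / MM A x W ∈ {u : ℝ | 0 < u + ε} := by
    intro W hW
    have h1 := NN_nonneg (A := A) hw0 hW x
    have h2 := MM_pos hA hW x
    show 0 < NN A w x W / MM A x W + ε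
    positivity
  have h1 : ContDiffOn ℝ 1 (fun W => rho k * muF ε (NN A w x W / MM A x W) *
      HV A (MM A x) y W) (Om ι) :=
    (contDiffOn_const.mul (contDiffOn_muF.comp
      ((contDiffOn_NN hA w x).div (contDiffOn_MM hA x)
        fun W hW => (MM_pos hA hW x).ne') hJ)).mul (contDiffOn_HV hA (contDiffOn_MM hA x) y)
  refine h1.congr fun W hW => ?_
  rw [Mpart, ur_eq hA J k x hW, hw]

/-- **(C1)** pointwise content of the `M`-part -/
theorem abs_DV_Mpart (hA : A.IsSymm) {ε : ℝ} (hε : 0 < ε) (J k : ℕ) (x y : ι)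
    {W : ι → ℂ} (hW : W ∈ Om ι) :
    |DV (Mpart Φ A ε J k x y) y W| ≤ 4 * (P365T2.H844.TT A W x y *
      (Pw Φ (P365T2.H844.TT A W) J k y x + Pw Φ (P365T2.H844.TT A W) J k x x)) := by
  have hrho := P365T2.H37.rho_pos k
  obtain ⟨w, hw⟩ : ∃ w : ι → ℝ, w = fun z => wk J k (tt Φ x z) / rho k := ⟨_, rfl⟩
  have hw0 : ∀ z, 0 ≤ w z := fun z => by
    rw [hw]
    exact div_nonneg (P365T2.H37.wk_nonneg (P365T2.H844.tt_nonneg x z)) hrho.le
  have hJ : ∀ W ∈ Om ι, NN A w x W / MM A x W ∈ {u : ℝ | 0 < u + ε} := by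
    intro W hW
    have h1 := NN_nonneg (A := A) hw0 hW x
    have h2 := MM_pos hA hW x
    show 0 < NN A w x W / MM A x W + ε
    positivity
  have e0 : ∀ W ∈ Om ι, Mpart Φ A ε J k x y W =
      rho k * (muF ε (NN A w x W / MM A x W) * HV A (MM A x) y W) := by
    intro W hW
    rw [Mpart, ur_eq hA J k x hW, hw]
    ring
  have hd : DifferentiableAt ℝ
      (fun W => muF ε (NN A w x W / MM A x W) * HV A (MM A x) y W) W :=
    diffAt (n := 1) ((contDiffOn_muF.comp ((contDiffOn_NN hA w x).div (contDiffOn_MM hA x)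
      fun W hW => (MM_pos hA hW x).ne') hJ).mul (contDiffOn_HV hA (contDiffOn_MM hA x) y))
      one_ne_zero hW
  have e1 : DV (Mpart Φ A ε J k x y) y W =
      rho k * DV (fun W => muF ε (NN A w x W / MM A x W) * HV A (MM A x) y W) y W := by
    have e2 : DV (Mpart Φ A ε J k x y) y W =
        DV (fun W => rho k * (muF ε (NN A w x W / MM A x W) * HV A (MM A x) y W)) y W :=
      DD_congr e0 _ hW
    rw [e2]
    exact DD_const_mul (rho k) hd
  have h1 := ptC hA hw0 x y hε hW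
  have e3 : Pw Φ (P365T2.H844.TT A W) J k y x = rho k * (NN A w y W / MM A y W) := by
    rw [Pw_eq hA J k y x hW]
    have hwk : (fun z => wk J k (tt Φ x z)) = fun z => rho k * w z := by
      funext z
      rw [hw]
      field_simp
    rw [hwk, NN_smul]
    ring
  have e4 : Pw Φ (P365T2.H844.TT A W) J k x x = rho k * (NN A w x W / MM A x W) := by
    rw [Pw_eq hA J k x x hW]
    have hwk : (fun z => wk J k (tt Φ x z)) = fun z => rho k * w z := by
      funext z
      rw [hw]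
      field_simp
    rw [hwk, NN_smul]
    ring
  have hT0 := TT_nonneg (A := A) hW x y
  have hMy := MM_pos hA hW y
  have hNy := NN_nonneg (A := A) hw0 hW y
  rw [e1, e3, e4, TT_eq, abs_mul, abs_of_pos hrho]
  have hP0 : 0 ≤ NN A w y W / MM A y W := by positivity
  calc rho k * |DV (fun W => muF ε (NN A w x W / MM A x W) * HV A (MM A x) y W) y W|
      ≤ rho k * (TT A x y W * (3 * (NN A w y W / MM A y W) + 4 * (NN A w x W / MM A x W))) :=
        mul_le_mul_of_nonneg_left h1 hrho.le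
    _ ≤ 4 * (TT A x y W * (rho k * (NN A w y W / MM A y W) +
          rho k * (NN A w x W / MM A x W))) := by
        have : 0 ≤ rho k * (TT A x y W * (NN A w y W / MM A y W)) := by positivity
        nlinarith

/-- content of the pair `x, y` at the scale `k` -/
noncomputable def ContXY (Φ : ι → X) (A : Matrix ι ι ℝ) (J k : ℕ) (x y : ι) (W : ι → ℂ) : ℝ :=
  P365T2.H844.TT A W x y *
    (Pw Φ (P365T2.H844.TT A W) J k y x + Pw Φ (P365T2.H844.TT A W) J k x x)

theorem ContXY_nonneg (hA : A.IsSymm) (J k : ℕ) (x y : ι) {W : ι → ℂ} (hW : W ∈ Om ι) :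
    0 ≤ ContXY Φ A J k x y W := by
  have hQ : ∀ a b, 0 ≤ P365T2.H844.TT A W a b := fun a b => by
    rw [TT_eq]; exact TT_nonneg hW a b
  have hp : ∀ a, 0 < pr (P365T2.H844.TT A W) a := fun a => by
    rw [pr_eq hA a hW]; exact MM_pos hA hW a
  exact mul_nonneg (hQ x y)
    (add_nonneg (P365T2.H844.Pw_nonneg hQ hp y x) (P365T2.H844.Pw_nonneg hQ hp x x))

theorem continuousOn_ContXY (hA : A.IsSymm) (J k : ℕ) (x y : ι) :
    ContinuousOn (ContXY Φ A J k x y) (Om ι) :=
  ((P365L.T2.Path.contDiffOn_TT (n := 0) hA x y).mul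
    ((contDiffOn_Pw (n := 0) hA J k y x).add (contDiffOn_Pw hA J k x x))).continuousOn

/-- **(C2)** the integrated `M`-part: one site, `C¹` law of compact support; no logarithm, no `T` -/
theorem int_Mpart (hA : A.IsSymm) {ε : ℝ} (hε : 0 < ε) (J k : ℕ) (x y : ι) {μ : Measure ℝ}
    {ρ ρ' : ℝ → ℝ} (h : SmLaw μ ρ ρ') {E : ℝ} {e : ι → ℝ} (he : ∀ x, 0 < e x) (v : ι → ℝ) :
    |∫ t : ℝ, ρ' t * Mpart Φ A ε J k x y (WV E e (Function.update v y t))| ≤
      4 * ∫ t, ContXY Φ A J k x y (WV E e (Function.update v y t)) ∂μ := by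
  have hM : ContDiffOn ℝ 1 (Mpart Φ A ε J k x y) (LH ι) := contDiffOn_Mpart hA hε J k x y
  have hcM := continuous_upd (E := E) (continuousOn_dR hM y) he v y
  have hp := h.parts (fun t => hasDerivAt_v hM (E := E) (v := v) y he t) hcM
  have hcC : Continuous fun t : ℝ => ContXY Φ A J k x y (WV E e (Function.update v y t)) :=
    continuous_upd (E := E) (continuousOn_ContXY hA J k x y) he v y
  have e1 : ∫ t : ℝ, ρ' t * Mpart Φ A ε J k x y (WV E e (Function.update v y t)) =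
      -∫ t : ℝ, ρ t * dR (Mpart Φ A ε J k x y) y (WV E e (Function.update v y t)) := by
    rw [hp, neg_neg]
  rw [e1, abs_neg, h.integral_eq, ← integral_const_mul]
  refine (abs_integral_le_integral_abs).trans (integral_mono ?_ ?_ fun t => ?_)
  · exact (h.integrable_mul hcM).abs
  · exact (h.integrable_mul hcC).const_mul 4
  · have hW : WV E e (Function.update v y t) ∈ Om ι := WV_mem_LH he _
    have h2 := abs_DV_Mpart (Φ := Φ) hA hε J k x y hW
    show |ρ t * dR (Mpart Φ A ε J k x y) y (WV E e (Function.update v y t))| ≤ _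
    rw [abs_mul, abs_of_nonneg (h.nonneg t)]
    have h3 : ρ t * |dR (Mpart Φ A ε J k x y) y (WV E e (Function.update v y t))| ≤
        ρ t * (4 * ContXY Φ A J k x y (WV E e (Function.update v y t))) :=
      mul_le_mul_of_nonneg_left h2 (h.nonneg t)
    linarith

end names

end P365T2.H618
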